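import Vale.Agent.Lib.P157.Final

open MeasureTheory ProbabilityTheory Filter Topology

/-- Existence of the limiting free energy at every density, on the cube and on the sphere, when
`exp f` is a positive multiple of `1 - θ` with `θ` the cosine transform of a positive measure of
mass less than one. -/
theorem Vale.Agent.Results.P157.AllDensityLimit.result
    (ν : Measure ℝ) [IsFiniteMeasure ν] (hν : ν Set.univ < 1) (c : ℝ) (hc : 0 < c)
    (f : ℝ → ℝ) (hf : ∀ h : ℝ, Real.exp (f h) = c * (1 - ∫ s, Real.cos (s * h) ∂ν))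
    (α : ℝ) (hα : 0 < α) :
    (∃ L : ℝ, Tendsto
      (Vale.Agent.P157.meanPressure Vale.Agent.P157.isingMeasure f α) atTop (𝓝 L)) ∧
    (∃ L : ℝ, Tendsto
      (Vale.Agent.P157.meanPressure Vale.Agent.P157.sphereMeasure f α) atTop (𝓝 L)) :=
  Vale.Agent.P157.main ν hν c hc f hf α hα
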