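import Vale.Agent.Lib.P157.Final

/-!
# P157: the limiting free energy exists at every density (second formulation)

The patterns are the rows of an infinite array of independent standard Gaussian variables on an
arbitrary probability space, the Ising pressure is a finite sum over sign vectors, the spherical
pressure is an average over the Euclidean unit sphere rescaled by `√N`.
-/

open MeasureTheory ProbabilityTheory Filter Topology
open scoped ENNReal

namespace Vale.Agent.Results.P157.EveryDensity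

/-- `(1/N) log` of the average of `exp (∑_{a < M} f (g^a · σ / √N))` over all sign vectors
`σ ∈ {-1,1}^N` -/
noncomputable def isingPressure (f : ℝ → ℝ) (M N : ℕ) (g : ℕ → ℕ → ℝ) : ℝ :=
  (1 / N) * Real.log ((1 / 2 ^ N) * ∑ σ : Fin N → ℤˣ,
    Real.exp (∑ a ∈ Finset.range M, f ((∑ i : Fin N, g a i * ((σ i : ℤ) : ℝ)) / √N)))

/-- `(1/N) log` of the average of `exp (∑_{a < M} f (g^a · x / √N))` over all `x` in the sphere of
radius `√N` of `ℝ^N`, `x = √N u` with `u` in the unit sphere with its surface measure -/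
noncomputable def spherePressure (f : ℝ → ℝ) (M N : ℕ) (g : ℕ → ℕ → ℝ) : ℝ :=
  (1 / N) * Real.log (⨍ u : Metric.sphere (0 : EuclideanSpace ℝ (Fin N)) 1,
    Real.exp (∑ a ∈ Finset.range M,
      f ((∑ i : Fin N, g a i * (√N * (u : EuclideanSpace ℝ (Fin N)) i)) / √N))
    ∂((volume : Measure (EuclideanSpace ℝ (Fin N))).toSphere))

section Bridge

theorem map_array {Ω : Type*} [MeasurableSpace Ω] (P : Measure Ω) [IsProbabilityMeasure P]
    (g : ℕ → ℕ → Ω → ℝ) (hmeas : ∀ a i, Measurable (g a i))
    (hlaw : ∀ a i, P.map (g a i) = gaussianReal 0 1)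
    (hind : iIndepFun (fun p : ℕ × ℕ => g p.1 p.2) P) (M N : ℕ) :
    P.map (fun ω (a : Fin M) (i : Fin N) => g a i ω) = Vale.Agent.P157.patternLaw M N := by
  have h1 : iIndepFun (fun (p : Fin M × Fin N) => g p.1 p.2) P :=
    hind.precomp (g := fun p : Fin M × Fin N => ((p.1 : ℕ), (p.2 : ℕ))) (by
      rintro ⟨a, b⟩ ⟨c, d⟩ h
      simp only [Prod.mk.injEq] at h
      exact Prod.ext (Fin.ext h.1) (Fin.ext h.2))
  have h2 := h1.map_fun_eq_pi_map (fun (p : Fin M × Fin N) => (hmeas p.1 p.2).aemeasurable)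
  simp_rw [hlaw] at h2
  rw [← Measure.infinitePi_eq_pi] at h2
  have h3 : P.map (fun ω (a : Fin M) (i : Fin N) => g a i ω) =
      (P.map (fun ω (p : Fin M × Fin N) => g p.1 p.2 ω)).map
        (MeasurableEquiv.curry (Fin M) (Fin N) ℝ) := by
    have hm : Measurable (fun ω (p : Fin M × Fin N) => g p.1 p.2 ω) :=
      measurable_pi_lambda _ (fun (p : Fin M × Fin N) => hmeas p.1 p.2)
    rw [Measure.map_map (MeasurableEquiv.measurable _) hm]
    rfl
  rw [h3, h2, Measure.infinitePi_map_curry (fun _ _ => gaussianReal 0 1),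
    Measure.infinitePi_eq_pi]
  unfold Vale.Agent.P157.patternLaw
  congr 1
  funext a
  rw [Measure.infinitePi_eq_pi]

/-- fair coin on the group of signs -/
noncomputable def coin : Measure ℤˣ := (2⁻¹ : ℝ≥0∞) • (Measure.dirac (-1) + Measure.dirac 1)

theorem singletons_units : MeasurableSingletonClass ℤˣ := by
  refine ⟨fun x => ⟨{(x : ℤ)}, trivial, ?_⟩⟩
  ext y
  simp [Units.ext_iff]

theorem coin_prob : IsProbabilityMeasure coin := ⟨by
  unfold coin
  simp only [Measure.smul_apply, Measure.add_apply, measure_univ, smul_eq_mul]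
  rw [one_add_one_eq_two]
  exact ENNReal.inv_mul_cancel (by norm_num) (by norm_num)⟩

attribute [local instance] singletons_units coin_prob

theorem coin_singleton (e : ℤˣ) : coin {e} = 2⁻¹ := by
  unfold coin
  simp only [Measure.smul_apply, Measure.add_apply, smul_eq_mul, Measure.dirac_apply]
  rcases Int.units_eq_one_or e with rfl | rfl
  · rw [Set.indicator_of_notMem, Set.indicator_of_mem]
    · simp
    · simp
    · simp
  · rw [Set.indicator_of_mem, Set.indicator_of_notMem]
    · simp
    · simp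
    · simp

theorem isingMeasure_eq (N : ℕ) : Vale.Agent.P157.isingMeasure N =
    (Measure.pi fun _ : Fin N => coin).map fun σ i => ((σ i : ℤ) : ℝ) := by
  have hm : Measurable fun e : ℤˣ => ((e : ℤ) : ℝ) := measurable_of_finite _
  have : IsProbabilityMeasure (coin.map fun e : ℤˣ => ((e : ℤ) : ℝ)) :=
    Measure.isProbabilityMeasure_map hm.aemeasurable
  rw [Measure.pi_map_pi (fun _ => hm.aemeasurable)]
  unfold Vale.Agent.P157.isingMeasure coin
  congr 1
  funext _
  rw [Measure.map_smul, Measure.map_add _ _ hm, Measure.map_dirac' hm, Measure.map_dirac' hm]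
  norm_num

theorem integral_ising (N : ℕ) (F : (Fin N → ℝ) → ℝ) (hF : Measurable F) :
    ∫ x, F x ∂(Vale.Agent.P157.isingMeasure N) =
      (1 / 2 ^ N) * ∑ σ : Fin N → ℤˣ, F (fun i => ((σ i : ℤ) : ℝ)) := by
  rw [isingMeasure_eq, integral_map (measurable_of_finite _).aemeasurable
    hF.aestronglyMeasurable, integral_fintype .of_finite, Finset.mul_sum]
  refine Finset.sum_congr rfl fun σ _ => ?_
  rw [smul_eq_mul, measureReal_def, Measure.pi_singleton]
  simp only [coin_singleton, Finset.prod_const, Finset.card_univ, Fintype.card_fin]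
  rw [ENNReal.toReal_pow, ENNReal.toReal_inv]
  simp

theorem integral_sphere (N : ℕ) (F : (Fin N → ℝ) → ℝ) (hF : Measurable F) :
    ∫ x, F x ∂(Vale.Agent.P157.sphereMeasure N) =
      ⨍ u : Metric.sphere (0 : EuclideanSpace ℝ (Fin N)) 1,
        F (fun i => √N * (u : EuclideanSpace ℝ (Fin N)) i)
        ∂((volume : Measure (EuclideanSpace ℝ (Fin N))).toSphere) := by
  unfold Vale.Agent.P157.sphereMeasure
  rw [integral_map (by fun_prop) hF.aestronglyMeasurable]
  rfl

/-- the integrand of the pressure is jointly measurable -/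
theorem measurable_weight {f : ℝ → ℝ} (hf : Measurable f) (M N : ℕ) :
    Measurable fun p : (Fin M → Fin N → ℝ) × (Fin N → ℝ) =>
      Real.exp (∑ a, f ((∑ i, p.1 a i * p.2 i) / √N)) := by
  refine Real.measurable_exp.comp (Finset.measurable_sum _ fun a _ => hf.comp ?_)
  fun_prop

theorem measurable_pressure {f : ℝ → ℝ} (hf : Measurable f) (M N : ℕ) (μ : Measure (Fin N → ℝ))
    [SFinite μ] :
    Measurable fun g : Fin M → Fin N → ℝ => Vale.Agent.P157.pressure μ f g := by
  unfold Vale.Agent.P157.pressure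
  refine Measurable.const_mul (Real.measurable_log.comp ?_) _
  exact (measurable_weight hf M N).stronglyMeasurable.integral_prod_right'.measurable

theorem measurable_weight_right {f : ℝ → ℝ} (hf : Measurable f) (M N : ℕ)
    (G : Fin M → Fin N → ℝ) :
    Measurable fun x : Fin N → ℝ => Real.exp (∑ a, f ((∑ i, G a i * x i) / √N)) := by
  refine Real.measurable_exp.comp (Finset.measurable_sum _ fun a _ => hf.comp ?_)
  fun_prop

theorem pressure_ising {f : ℝ → ℝ} (hf : Measurable f) (M N : ℕ) (G : ℕ → ℕ → ℝ) :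
    Vale.Agent.P157.pressure (Vale.Agent.P157.isingMeasure N) f
      (fun (a : Fin M) (i : Fin N) => G a i) = isingPressure f M N G := by
  have h1 := integral_ising N _
    (measurable_weight_right hf M N (fun (a : Fin M) (i : Fin N) => G a i))
  unfold Vale.Agent.P157.pressure isingPressure
  rw [h1]
  congr 4
  funext σ
  congr 1
  exact (Finset.sum_range fun a => f ((∑ i : Fin N, G a i * ((σ i : ℤ) : ℝ)) / √N)).symm

theorem pressure_sphere {f : ℝ → ℝ} (hf : Measurable f) (M N : ℕ) (G : ℕ → ℕ → ℝ) :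
    Vale.Agent.P157.pressure (Vale.Agent.P157.sphereMeasure N) f
      (fun (a : Fin M) (i : Fin N) => G a i) = spherePressure f M N G := by
  have h1 := integral_sphere N _
    (measurable_weight_right hf M N (fun (a : Fin M) (i : Fin N) => G a i))
  unfold Vale.Agent.P157.pressure spherePressure
  rw [h1]
  congr 3
  funext u
  congr 1
  exact (Finset.sum_range fun a => f ((∑ i : Fin N, G a i *
    (√N * (u : EuclideanSpace ℝ (Fin N)) i)) / √N)).symm

theorem mean_eq {Ω : Type*} [MeasurableSpace Ω] (P : Measure Ω) [IsProbabilityMeasure P]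
    (g : ℕ → ℕ → Ω → ℝ) (hmeas : ∀ a i, Measurable (g a i))
    (hlaw : ∀ a i, P.map (g a i) = gaussianReal 0 1)
    (hind : iIndepFun (fun p : ℕ × ℕ => g p.1 p.2) P) {f : ℝ → ℝ} (hf : Measurable f) (M N : ℕ)
    (μ : Measure (Fin N → ℝ)) [SFinite μ] :
    ∫ G, Vale.Agent.P157.pressure μ f G ∂(Vale.Agent.P157.patternLaw M N) =
      ∫ ω, Vale.Agent.P157.pressure μ f (fun (a : Fin M) (i : Fin N) => g a i ω) ∂P := by
  have hm : Measurable (fun ω (a : Fin M) (i : Fin N) => g a i ω) :=
    measurable_pi_lambda _ (fun a => measurable_pi_lambda _ (fun i => hmeas a i))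
  rw [← map_array P g hmeas hlaw hind M N]
  exact integral_map hm.aemeasurable (measurable_pressure hf M N μ).aestronglyMeasurable

theorem mean_ising {Ω : Type*} [MeasurableSpace Ω] (P : Measure Ω) [IsProbabilityMeasure P]
    (g : ℕ → ℕ → Ω → ℝ) (hmeas : ∀ a i, Measurable (g a i))
    (hlaw : ∀ a i, P.map (g a i) = gaussianReal 0 1)
    (hind : iIndepFun (fun p : ℕ × ℕ => g p.1 p.2) P) {f : ℝ → ℝ} (hf : Measurable f) (M N : ℕ) :
    ∫ G, Vale.Agent.P157.pressure (Vale.Agent.P157.isingMeasure N) f G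
        ∂(Vale.Agent.P157.patternLaw M N) =
      ∫ ω, isingPressure f M N (fun a i => g a i ω) ∂P := by
  have hs : SFinite (Vale.Agent.P157.isingMeasure N) := by
    rw [isingMeasure_eq]
    infer_instance
  rw [mean_eq P g hmeas hlaw hind hf]
  exact integral_congr_ae (Eventually.of_forall fun ω => pressure_ising hf M N fun a i => g a i ω)

theorem mean_sphere {Ω : Type*} [MeasurableSpace Ω] (P : Measure Ω) [IsProbabilityMeasure P]
    (g : ℕ → ℕ → Ω → ℝ) (hmeas : ∀ a i, Measurable (g a i))
    (hlaw : ∀ a i, P.map (g a i) = gaussianReal 0 1)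
    (hind : iIndepFun (fun p : ℕ × ℕ => g p.1 p.2) P) {f : ℝ → ℝ} (hf : Measurable f) (M N : ℕ) :
    ∫ G, Vale.Agent.P157.pressure (Vale.Agent.P157.sphereMeasure N) f G
        ∂(Vale.Agent.P157.patternLaw M N) =
      ∫ ω, spherePressure f M N (fun a i => g a i ω) ∂P := by
  have hs : SFinite (Vale.Agent.P157.sphereMeasure N) := by
    unfold Vale.Agent.P157.sphereMeasure
    infer_instance
  rw [mean_eq P g hmeas hlaw hind hf]
  exact integral_congr_ae (Eventually.of_forall fun ω => pressure_sphere hf M N fun a i => g a i ω)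

end Bridge

/-- **The limit of `E p_N(f)` exists for every density `α > 0`, on both configuration spaces,
whenever `e^f = c (1 - b φ)` with `c > 0`, `0 ≤ b < 1` and `φ` a real-valued characteristic function
of a probability measure.** -/
theorem result {Ω : Type*} [MeasurableSpace Ω] (P : Measure Ω) [IsProbabilityMeasure P]
    (g : ℕ → ℕ → Ω → ℝ) (hmeas : ∀ a i, Measurable (g a i))
    (hlaw : ∀ a i, P.map (g a i) = gaussianReal 0 1)
    (hind : iIndepFun (fun p : ℕ × ℕ => g p.1 p.2) P)
    (ρ : Measure ℝ) [IsProbabilityMeasure ρ] (φ : ℝ → ℝ) (hφ : ∀ h, (φ h : ℂ) = charFun ρ h)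
    (b c : ℝ) (hb0 : 0 ≤ b) (hb1 : b < 1) (hc : 0 < c)
    (f : ℝ → ℝ) (hf : ∀ h, Real.exp (f h) = c * (1 - b * φ h)) (α : ℝ) (hα : 0 < α) :
    (∃ L : ℝ, Tendsto (fun N : ℕ => ∫ ω, isingPressure f ⌊α * N⌋₊ N (fun a i => g a i ω) ∂P)
      atTop (𝓝 L)) ∧
    (∃ L : ℝ, Tendsto (fun N : ℕ => ∫ ω, spherePressure f ⌊α * N⌋₊ N (fun a i => g a i ω) ∂P)
      atTop (𝓝 L)) := by
  have hφc : ∀ h, φ h = ∫ s, Real.cos (s * h) ∂ρ := by
    intro h
    have h1 := congrArg Complex.re (hφ h)
    rw [Complex.ofReal_re, charFun_apply_real] at h1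
    rw [h1]
    have hi : Integrable (fun x : ℝ => Complex.exp ((h : ℂ) * (x : ℂ) * Complex.I)) ρ := by
      refine Integrable.of_bound (by fun_prop) 1 ?_
      filter_upwards with x
      rw [← Complex.ofReal_mul, Complex.norm_exp_ofReal_mul_I]
    have h2 := integral_re hi
    refine (Eq.trans ?_ h2).symm
    refine integral_congr_ae (Eventually.of_forall fun x => ?_)
    show Real.cos (x * h) = (Complex.exp ((h : ℂ) * (x : ℂ) * Complex.I)).re
    rw [← Complex.ofReal_mul, Complex.exp_ofReal_mul_I_re, mul_comm]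
  have hφm : Measurable φ := by
    have h1 : φ = fun h => (charFun ρ h).re := by
      funext h
      rw [← hφ h, Complex.ofReal_re]
    rw [h1]
    exact Complex.measurable_re.comp measurable_charFun
  have hfm : Measurable f := by
    have h1 : f = fun h => Real.log (c * (1 - b * φ h)) := by
      funext h
      rw [← hf h, Real.log_exp]
    rw [h1]
    exact Real.measurable_log.comp (by fun_prop)
  have hfin : IsFiniteMeasure (ENNReal.ofReal b • ρ) :=
    ⟨by rw [Measure.smul_apply, measure_univ, smul_eq_mul, mul_one]; exact ENNReal.ofReal_lt_top⟩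
  have hmain := Vale.Agent.P157.main (ENNReal.ofReal b • ρ) (by
      rw [Measure.smul_apply, measure_univ, smul_eq_mul, mul_one]
      exact ENNReal.ofReal_lt_one.2 hb1) c hc f (by
      intro h
      rw [hf h, integral_smul_measure, ENNReal.toReal_ofReal hb0, smul_eq_mul, hφc h]) α hα
  refine ⟨?_, ?_⟩
  · obtain ⟨L, hL⟩ := hmain.1
    exact ⟨L, hL.congr fun N => mean_ising P g hmeas hlaw hind hfm _ _⟩
  · obtain ⟨L, hL⟩ := hmain.2
    exact ⟨L, hL.congr fun N => mean_sphere P g hmeas hlaw hind hfm _ _⟩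

end Vale.Agent.Results.P157.EveryDensity
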